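import Vale.Agent.N164.Main

open Vale.Agent.P164 Vale.Agent.P164R Vale.Agent.N164 Filter Topology MeasureTheory
  ProbabilityTheory
open scoped NNReal

universe u

/-- For `0 < κ < 8`: (1) a series test decides for every gauge whether all segments of the SLE
trace have positive finite, zero or infinite measure; (2) some good gauge is of smaller order than
`r^(1+κ/8) (log log (1/r))^(1/2-κ/16)` along a sequence of scales. -/
theorem Vale.Agent.Results.P164.A0SeriesTest.result (κ : ℝ) (h0 : 0 < κ) (h8 : κ < 8) :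
    (∀ k : ℝ → ℝ, IsGauge k →
      ((SegmentLaw.{u} κ k fun m => 0 < m ∧ m < ⊤) ↔
        (∃ c : ℝ, 0 < c ∧ SeriesConv κ k c) ∧ ∃ c : ℝ, 0 < c ∧ ¬ SeriesConv κ k c) ∧
      ((SegmentLaw.{u} κ k fun m => m = 0) ↔ ∀ c : ℝ, 0 < c → ¬ SeriesConv κ k c) ∧
      ((SegmentLaw.{u} κ k fun m => m = ⊤) ↔ ∀ c : ℝ, 0 < c → SeriesConv κ k c)) ∧
    ∃ k : ℝ → ℝ, IsGauge k ∧ (SegmentLaw.{u} κ k fun m => 0 < m ∧ m < ⊤) ∧
      ∀ ε : ℝ, 0 < ε → ∃ᶠ r in 𝓝[>] (0 : ℝ),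
        k r ≤ ε * (r ^ (1 + κ / 8) * Real.log (Real.log (1 / r)) ^ (1 / 2 - κ / 16)) :=
  ⟨fun _ hk => classify h0 h8 hk, exists_good_dip h0 h8⟩
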